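import Vale.Agent.P195.Gamma.Assembly
import Vale.Agent.P195.Gamma.ExactA.ConeTwist
import Vale.Agent.P195.Gamma.ExactB.CoconeAll

/-!
The Auslander-Reiten conjecture is false.
-/

open CategoryTheory CategoryTheory.Abelian Vale.Agent.P195.Gamma

/-- A finite-dimensional algebra over the rationals with a finitely generated module without
extensions by itself and by the algebra in positive degrees that is not projective. -/
theorem Vale.Agent.Results.P195.ARCFalse.result :
    ∃ (A : Type) (_ : Ring A) (_ : Algebra ℚ A) (_ : Module.Finite ℚ A) (M : ModuleCat.{0} A),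
      Module.Finite A M ∧
      (∀ i : ℕ, 1 ≤ i → Subsingleton (Ext M M i) ∧ Subsingleton (Ext M (ModuleCat.of A A) i)) ∧
      ¬ Module.Projective A M :=
  counterexample_of_cones ExactA.coneExact ExactA.augKer ExactB.coconeAll
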