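import Vale.Agent.P195.IT.Main

/-!
The Auslander-Reiten conjecture for Artin algebras of Igusa-Todorov type.
-/

namespace Vale.Agent.Results.P195.IgusaTodorov

open CategoryTheory CategoryTheory.Abelian Vale.Agent.P195.IT

universe u

/-- The conjecture for modules with high syzygies of two-term type, for Artin algebras of
Igusa-Todorov type, for radical power conditions, and for radical cube zero. -/
theorem result :
    (∀ (R : Type u) [CommRing R] [IsArtinianRing R] (A : Type u) [Ring A] [Algebra R A]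
        [Module.Finite R A] (Z : ModuleCat.{u} A), Module.Finite A Z → ∀ (b : ℕ)
        (M : ModuleCat.{u} A), Module.Finite A M →
        (∀ k, 1 ≤ k → Subsingleton (Ext M M k) ∧ Subsingleton (Ext M (ModuleCat.of A A) k)) →
        (∀ D, ∃ d, D ≤ d ∧ ∃ K P V1 V0 : ModuleCat.{u} A, Module.Finite A K ∧ Module.Finite A V1 ∧
          Module.Finite A V0 ∧ Module.Finite A P ∧ Module.Projective A P ∧ IsSyzygy d M K ∧
          InAddPlus b Z V1 ∧ InAddPlus b Z V0 ∧ TwoTerm (ModuleCat.of A (K × P)) V1 V0) →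
        Module.Projective A M) ∧
    (∀ (R : Type u) [CommRing R] [IsArtinianRing R] (A : Type u) [Ring A] [Algebra R A]
        [Module.Finite R A] (M : ModuleCat.{u} A), Module.Finite A M →
        (∀ k, 1 ≤ k → Subsingleton (Ext M M k) ∧ Subsingleton (Ext M (ModuleCat.of A A) k)) →
        (∀ D, ∃ d, D ≤ d ∧ ∃ K : ModuleCat.{u} A, Module.Finite A K ∧ IsSyzygy d M K ∧
          Ring.jacobson A ^ 2 • (⊤ : Submodule A K) = ⊥) →
        Module.Projective A M) ∧
    (∀ (R : Type u) [CommRing R] [IsArtinianRing R] (A : Type u) [Ring A] [Algebra R A]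
        [Module.Finite R A] (Z : ModuleCat.{u} A), Module.Finite A Z → ∀ (b t : ℕ),
      (∀ X : ModuleCat.{u} A, Module.Finite A X →
        ∃ K P V1 V0 : ModuleCat.{u} A, Module.Finite A K ∧ Module.Finite A V1 ∧
          Module.Finite A V0 ∧ Module.Finite A P ∧ Module.Projective A P ∧ IsSyzygy t X K ∧
          InAddPlusLE b Z V1 ∧ InAddPlusLE b Z V0 ∧ TwoTerm (ModuleCat.of A (K × P)) V1 V0) →
      ∃ N : ℕ, ∀ M : ModuleCat.{u} A, Module.Finite A M →
        (∀ k, 1 ≤ k → k ≤ N →
          Subsingleton (Ext M M k) ∧ Subsingleton (Ext M (ModuleCat.of A A) k)) →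
        Module.Projective A M) ∧
    (∀ (R : Type u) [CommRing R] [IsArtinianRing R] (A : Type u) [Ring A] [Algebra R A]
        [Module.Finite R A] (n m : ℕ), Ring.jacobson A ^ (n + m + 1) = ⊥ →
      ∀ (Z Z' : ModuleCat.{u} A), Module.Finite A Z → Module.Finite A Z' →
      (∀ X : ModuleCat.{u} A, Module.Finite A X →
        Ring.jacobson A ^ n • (⊤ : Submodule A X) = ⊥ → ∃ r : ℕ, Retr A X (Fin r → Z)) →
      (∀ X : ModuleCat.{u} A, Module.Finite A X →
        Ring.jacobson A ^ m • (⊤ : Submodule A X) = ⊥ → ∃ r : ℕ, Retr A X (Fin r → Z')) →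
      ∃ N : ℕ, ∀ M : ModuleCat.{u} A, Module.Finite A M →
        (∀ k, 1 ≤ k → k ≤ N →
          Subsingleton (Ext M M k) ∧ Subsingleton (Ext M (ModuleCat.of A A) k)) →
        Module.Projective A M) ∧
    (∀ (R : Type u) [CommRing R] [IsArtinianRing R] (A : Type u) [Ring A] [Algebra R A]
        [Module.Finite R A], Ring.jacobson A ^ 3 = ⊥ →
      ∃ N : ℕ, ∀ M : ModuleCat.{u} A, Module.Finite A M →
        (∀ k, 1 ≤ k → k ≤ N →
          Subsingleton (Ext M M k) ∧ Subsingleton (Ext M (ModuleCat.of A A) k)) →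
        Module.Projective A M) := by
  refine ⟨?_, ?_, ?_, ?_, ?_⟩
  · intro R _ _ A _ _ _ Z hZ b M hM hE h
    exact arc_module R Z b M hM hE h
  · intro R _ _ A _ _ _ M hM hE h
    exact arc_short_syzygies R M hM hE h
  · intro R _ _ A _ _ _ Z hZ b t h
    exact arc_igusa_todorov_bounded R Z b t h
  · intro R _ _ A _ _ _ n m hJ Z Z' hZ hZ' hn hm
    exact arc_radical_power R n m hJ Z Z' hn hm
  · intro R _ _ A _ _ _ hJ
    exact arc_rad_cube R hJ

end Vale.Agent.Results.P195.IgusaTodorov
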